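import Crest.Agent.X212.Gau76.Main_Mg
import Crest.Agent.X212.Nr78.Alt_Mg
import Crest.Agent.X212.Ncm43.Ix_Mg
import Crest.Agent.X212.Nr55.Rfl
import Crest.Agent.X212.Qab60.Qz
import Crest.Agent.X212.Hp13.Map
import Crest.Agent.X212.Hp13.RtM
import Crest.Agent.X212.Nrx5.Fin
import Crest.Agent.X212.Top11.RowA_Mg
import Crest.Agent.X212.Cyl58.Tad
import Crest.Agent.X212.Hsa39.La

/-!
# Row 212, RFACE: the leaves for `TA = Nr41.TA`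
-/

set_option autoImplicit false
noncomputable section

namespace Crest.Agent.X212.Rf65
open An An.Job M G75 Ins26 Nr41

variable {κ lam : Type} [Fintype κ] [Fintype lam] [DecidableEq lam] (Lm : LM κ lam)

/-- the open leaves -/
structure RQ : Prop where
  ac : All Lm AltC

variable {Lm}

theorem RQ.lv (O : RQ Lm) : Lv Lm where
  map _ _ _ _ _ _ J c := ⟨Hp13.Mp.map J c, Nrx5.fin J c⟩
  cx := Nrx5.cx Lm
  reg _ _ _ _ _ _ J c _ _ _ _ _ _ _ _ _ _ :=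
    ⟨1, one_pos, fun _ _ _ => Nt93.regTr (Ulc97.Mv.mv J c)⟩
  ix := Ncm43.ixr Lm
  la := Hsa39.La.la Lm
  lf := All.and (Nr55.lf0 Lm) (Nt9.td Lm)
  ad := Nr78.altD Lm
  rd := Pte3.Rd.rchD Lm
  ac := O.ac
  lt := Lt56.lt Lm
  lab := Mp86.Lab.lab Lm
  hsa := Pat85.hsa Lm
  rfl := Nr55.rfl_ Lm
  gau := Gau76.gau Lm
  rt := Hp13.Rt.rchT (fun _ => For74.for_ _ _ _ _) fun _ => Top11.Rw.row0
  rc := Hp13.Ht.rchC Lm

theorem dta_of (h : Dfl49.DtaStmt Lm (TAd Lm)) : Dfl49.DtaStmt Lm (Nr41.TA Lm) :=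
  fun S D i Wi r n J c R j n₀ T Fn h₁ a b e =>
    let ⟨δ₀, d0, k⟩ := h S D i Wi r n J c R j n₀ T Fn h₁ a b e
    ⟨δ₀, d0, fun δ hδ => (k δ hδ).mono fun _ t σ H q y a1 a2 a3 a4 => .inr (t σ H q y a1 a2 a3 a4)⟩

theorem RQ.ro (O : RQ Lm) : RO Lm (Nr41.TA Lm) :=
  ⟨ntr O.lv, dta_of (Cyl58.Tad.dtaN Lm), Qab60.rfQ Lm⟩

end Crest.Agent.X212.Rf65
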